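import Vale.Agent.P153.R2.KPOS.H398.Tr
import Vale.Agent.P153.R2.KPOS.H536.Stmt
import Vale.Agent.P153.R2.SDB.Tail0
import Vale.Agent.P153.Bd5.B19

/-!
# P153-R2, block KPOS (helper398): transfer, in the form of the chain theorem

`clE h`: midpoints of the edges of the class `8ℤ`. A circuit of such edges in the annulus separates
(`miss_of_Zr`); `transfer_chain`: the law of `{h ≥ 1}` in a big free domain bounds from above a
multiple of its law in one of the free domains of a sandwich.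
-/

namespace Vale.Agent.P153.R2.KPOS.Tr

open Set Relation
open Vale.Agent.P153 Vale.Agent.P153.R2
open Vale.Agent.P153.Topo (Conn)
open Vale.Agent.P153.F.RSW (Ann annR pr mem_pr Mid v1 v2 Wp IL Inc)
open Vale.Agent.P153.R2.KPOS.H536 (Law cp sh InBox)
open scoped Classical

variable {T K W : Set Pt} {h g : Hg}

/-- The midpoints of the edges of the class `8ℤ`. -/
def clE (h : Hg) : Set Pt := {w | ∃ x y, Adj x y ∧ w = x + y ∧ Ccl (h x) (h y)}

theorem Ccl.symm {a b : ℤ} (h : Ccl a b) : Ccl b a := by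
  obtain ⟨m, h1, h2, h3⟩ := h
  exact ⟨m, h1, h3, h2⟩

theorem mem_clE {x y : Pt} (hxy : Adj x y) : x + y ∈ clE h ↔ Ccl (h x) (h y) := by
  constructor
  · rintro ⟨x', y', h1, h2, h3⟩
    rcases F.X.mid_inj hxy h1 h2 with ⟨rfl, rfl⟩ | ⟨rfl, rfl⟩
    · exact h3
    · exact h3.symm
  · exact fun h1 => ⟨x, y, hxy, rfl, h1⟩

theorem OpC.symm {x y : Pt} (h1 : OpC h x y) : OpC h y x :=
  ⟨Topo.adj_symm h1.1, fun h2 => h1.2 h2.symm⟩

theorem OpC.stp {x y : Pt} (h1 : OpC h x y) : F.X.stp (clE h) x y :=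
  ⟨h1.1, fun h2 => h1.2 ((mem_clE h1.1).1 h2)⟩

/-- A set of edges which confines separates the clusters. -/
theorem miss_of_Conf {B : Set Pt} (hC : F.X.Conf (clE h) K Bᶜᶜ) : ∀ x ∈ K, x ∉ ClC Bᶜ h := by
  rintro x hx ⟨y, hy, hyx⟩
  have h1 : ReflTransGen (F.X.stp (clE h)) x y := by
    clear hx
    induction hyx with
    | refl => exact ReflTransGen.refl
    | tail _ h2 ih => exact ReflTransGen.head (OpC.stp h2.symm) ih
  exact hC x hx y h1 hy

/-- A circuit in the annulus separates. -/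
theorem miss_of_Zr {z : Pt} {r : ℤ} (hr : 1 ≤ r) (hZ : F.X.Zr z r (clE h)) :
    ∀ x ∈ bx z r, x ∉ ClC (bx z (2 * r))ᶜ h := by
  refine miss_of_Conf fun x hx y hy => ?_
  rw [compl_compl]
  exact F.X.s_conf z r (clE h) hr hZ x hx y hy

/-- The spin: plus next to the multiples of `8`. -/
noncomputable def tz (h : Hg) : Pt → Bool := fun v => decide (∃ m : ℤ, 8 ∣ m ∧ |h v - m| = 1)

theorem v12 (z : ℤ × ℤ) : z = v1 z + v2 z := by
  refine Prod.ext ?_ ?_
  · simp only [v1, v2, Prod.fst_add]; omega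
  · simp only [v1, v2, Prod.snd_add]; omega

theorem adj_v12 {z : ℤ × ℤ} (hz : z ∈ Mid) : Adj (v1 z) (v2 z) := by
  have h : Odd z.1 ∨ Odd z.2 := hz
  rw [Int.odd_iff, Int.odd_iff] at h
  rw [Topo.adj_iff]
  simp only [v1, v2]
  omega

/-- Plus edges of the spin are the edges of the class. -/
theorem Wp_tz {I : Pt → Set ℤ} {z : Pt} {r : ℤ} (hr : 1 ≤ r) (hW : bx z (2 * r) ⊆ W)
    (hh : h ∈ Cfg W I) (hA : Ann z.1 z.2 r (Wp (tz h))) : F.X.Zr z r (clE h) := by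
  refine F.RSW.ann_congr (by omega) ?_ hA
  rintro w ⟨⟨hm, h1, h2⟩, h3⟩
  refine ⟨?_, hm⟩
  have h4 := adj_v12 hm
  have h5 : v1 w ∈ bx z (2 * r) := by
    have h6 := h3.1
    rw [mem_pr] at h6
    show |(v1 w).1 - z.1| ≤ 2 * r ∧ |(v1 w).2 - z.2| ≤ 2 * r
    simp only [v1]
    rw [abs_le, abs_le]
    omega
  rw [v12 w, mem_clE h4]
  obtain ⟨m, hm1, hm2⟩ := of_decide_eq_true h1
  obtain ⟨m', hm3, hm4⟩ := of_decide_eq_true h2
  have h7 := lev_unique2 hm1 hm3 hm2 hm4 (hh.2.2 _ (hW h5) _ h4)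
  rw [← h7] at hm4
  exact ⟨m, hm1, hm2, hm4⟩

/-- The probability of an event for the set `{h ≥ 1}`, free law in `V`. -/
noncomputable def pS (V : Set Pt) (E : Set (ℤ × ℤ) → Prop) : ℝ :=
  Pr (Cfg V (frd V 0)) {h | E {x | 1 ≤ h x}}

theorem pS_nonneg (V : Set Pt) (E : Set (ℤ × ℤ) → Prop) : 0 ≤ pS V E := Pr_nonneg _ _

/-- Translation. -/
theorem pS_tr {V : Set Pt} (hV : V.Finite) (v : Pt) (E : Set (ℤ × ℤ) → Prop) :
    pS (SDB.tr v V) (fun S => E {x | x + v ∈ S}) = pS V E := by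
  unfold pS
  rw [SDB.Pr_tr hV]
  simp only [Set.mem_ofPred_eq, add_sub_cancel_right]

/-- **Transfer**, in the form of the chain theorem: one domain of the sandwich works. -/
theorem transfer_chain (hW : W.Finite) {a b g N : ℤ} (hg : 1 ≤ g)
    (hbW : bx (2 * a, 2 * b) (2 * g) ⊆ W) (hN : N ≤ g - 1)
    {E : Set (ℤ × ℤ) → Prop} (hE : Inc E) (hbox : InBox N E) {c : ℝ}
    (hc : c ≤ Pr (Cfg W (frd W 0)) {h | ∀ x ∈ bx (2 * a, 2 * b) g,
      x ∉ ClC (bx (2 * a, 2 * b) (2 * g))ᶜ h}) :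
    ∃ V : Set Pt, bx 0 (g - 1) ⊆ V ∧ V ⊆ bx 0 (2 * g) ∧ c / 2 * pS V E ≤ pS W (cp (sh a b) E) := by
  have hfin : {V : Set Pt | bx 0 (g - 1) ⊆ V ∧ V ⊆ bx 0 (2 * g)}.Finite :=
    (F2.bx_finite 0 (2 * g)).finite_subsets.subset fun V hV => hV.2
  have hne : {V : Set Pt | bx 0 (g - 1) ⊆ V ∧ V ⊆ bx 0 (2 * g)}.Nonempty := by
    refine ⟨bx 0 (2 * g), ?_, Subset.rfl⟩
    rintro x ⟨h1, h2⟩
    exact ⟨h1.trans (by omega), h2.trans (by omega)⟩
  obtain ⟨V0, hV0, hmin⟩ := Set.exists_min_image _ (fun V => pS V E) hfin hne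
  refine ⟨V0, hV0.1, hV0.2, ?_⟩
  have key := transfer hW hbW (r1 := g) (A := {h | cp (sh a b) E {x | 1 ≤ h x}})
    (fun f f' hff hf => hE _ _ (fun x hx => le_trans (show (1 : ℤ) ≤ f _ from hx) (hff _)) hf)
    (fun f f' hff => ?_) (pS_nonneg V0 E) fun V h1 h2 => ?_
  · have h1 : c / 2 * pS V0 E ≤ pS V0 E * (1 / 2 * Pr (Cfg W (frd W 0))
        {h | ∀ x ∈ bx (2 * a, 2 * b) g, x ∉ ClC (bx (2 * a, 2 * b) (2 * g))ᶜ h}) := by
      have := mul_le_mul_of_nonneg_left hc (pS_nonneg V0 E)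
      linarith
    exact h1.trans key
  · have hloc : ∀ f f' : Hg, (∀ x ∈ bx (2 * a, 2 * b) (g - 1), f x = f' x) →
        cp (sh a b) E {x | 1 ≤ f x} → cp (sh a b) E {x | 1 ≤ f' x} := by
      intro f f' hff hf
      refine hbox _ _ (fun x hx1 hx2 => ?_) hf
      have h2 : f (sh a b x) = f' (sh a b x) := by
        refine hff _ ⟨?_, ?_⟩
        · simp only [sh, add_sub_cancel_right]
          exact hx1.trans hN
        · simp only [sh, add_sub_cancel_right]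
          exact hx2.trans hN
      show (1 : ℤ) ≤ f (sh a b x) ↔ (1 : ℤ) ≤ f' (sh a b x)
      rw [h2]
    exact ⟨hloc f f' hff, hloc f' f fun x hx => (hff x hx).symm⟩
  · have hVf : V.Finite := (F2.bx_finite _ _).subset h2
    have h3 : pS (SDB.tr (-(2 * a, 2 * b)) V) E = Pr (Cfg V (frd V 0))
        {h | cp (sh a b) E {x | 1 ≤ h x}} := by
      unfold pS
      rw [SDB.Pr_tr hVf]
      congr 1
      ext f
      have e : {x : ℤ × ℤ | 1 ≤ f (x - -(2 * a, 2 * b))} = {x | sh a b x ∈ {x | 1 ≤ f x}} := by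
        ext x
        have e1 : x - -(2 * a, 2 * b) = sh a b x := Prod.ext
          (by simp only [sh, sub_neg_eq_add, Prod.fst_add])
          (by simp only [sh, sub_neg_eq_add, Prod.snd_add])
        rw [Set.mem_ofPred_eq, Set.mem_ofPred_eq, Set.mem_ofPred_eq, e1]
      show E {x | 1 ≤ f (x - -(2 * a, 2 * b))} ↔ E {x | sh a b x ∈ {x | 1 ≤ f x}}
      rw [e]
    rw [← h3]
    refine hmin _ ⟨fun x hx => ?_, fun x hx => ?_⟩
    · show x - -(2 * a, 2 * b) ∈ V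
      refine h1 ⟨?_, ?_⟩
      · simpa using hx.1
      · simpa using hx.2
    · have h4 := h2 (show x - -(2 * a, 2 * b) ∈ V from hx)
      refine ⟨?_, ?_⟩
      · simpa using h4.1
      · simpa using h4.2

end Vale.Agent.P153.R2.KPOS.Tr
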