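import Vale.Agent.P153.R2.KPOS.H398.Tr
import Vale.Agent.P153.R2.KPOS.H397.TV

/-!
# P153-R2, block KPOS (helper398): the level of the circuits is zero

`lev_le`: if the outermost circuit of the class `8ℤ` around `K` exists, its level is not zero with
probability at most `E X ^ 2 / 64`, for every average `X` of the heights inside. `esc_le`: hence the
cluster of edges which are not closed at level `0` does not leave the box, up to this probability and
the probability that there is no circuit of the class.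
-/

namespace Vale.Agent.P153.R2.KPOS.Tr

open Set Relation
open Vale.Agent.P153 Vale.Agent.P153.R2
open Vale.Agent.P153.Topo (Conn)
open scoped Classical

variable {T K W : Set Pt} {h g : Hg}

/-- Average of the heights. -/
noncomputable def av (s : Finset Pt) (f : Pt → ℝ) (h : Hg) : ℝ := ∑ v ∈ s, f v * (h v : ℝ)

theorem av_add (s : Finset Pt) (f : Pt → ℝ) (hf : ∑ v ∈ s, f v = 1) (h : Hg) (L : ℤ) :
    av s f (fun x => h x + L) = av s f h + L := by
  unfold av
  have e : ∀ v ∈ s, f v * ((h v + L : ℤ) : ℝ) = f v * (h v : ℝ) + f v * (L : ℝ) := fun v _ => by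
    push_cast; ring
  rw [Finset.sum_congr rfl e, Finset.sum_add_distrib, ← Finset.sum_mul, hf, one_mul]

/-- Shift of the level. -/
theorem Ex_shift {V : Set Pt} {m : ℤ} (hm : Even m) (F : Hg → ℝ) :
    Ex (Cfg V (frd V m)) F = Ex (Cfg V (frd V 0)) fun h => F fun x => h x + m := by
  have hmem : ∀ (m k : ℤ), Even k → ∀ h ∈ Cfg V (frd V m), (fun x => h x + k) ∈
      Cfg V (frd V (m + k)) := by
    intro m k hk h hh
    refine ⟨fun x => (hh.1 x).add_even hk, fun x => ?_, fun x hx y hxy => ?_⟩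
    · have h0 := hh.2.1 x
      unfold frd at h0 ⊢
      by_cases h1 : x ∈ V
      · rw [if_pos h1]; exact mem_univ _
      · by_cases h2 : x ∈ ebd V
        · rw [if_neg h1, if_pos h2] at h0 ⊢
          simp only [mem_insert_iff, mem_singleton_iff] at h0 ⊢
          omega
        · rw [if_neg h1, if_neg h2] at h0 ⊢
          simp only [mem_singleton_iff] at h0 ⊢
          omega
    · have := hh.2.2 x hx y hxy
      simpa using this
  refine Ex_bij _ ⟨fun h hh => ?_, fun a _ b _ hab => ?_, fun h hh =>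
    ⟨fun x => h x + -m, ?_, ?_⟩⟩ F
  · have := hmem 0 m hm h hh
    rwa [zero_add] at this
  · funext x
    have := congrFun hab x
    simpa using this
  · have := hmem m (-m) hm.neg h hh
    rwa [add_neg_cancel] at this
  · funext x
    simp

/-- The law inside. -/
theorem fib_Ex {L : ℤ} (hW : W.Finite) (hTW : Tᶜ ⊆ W) (hL : 8 ∣ L)
    (hB : ∀ x ∈ ClC T h, ∀ y ∈ Dm T K h, Adj x y → |h x - L| = 1)
    (hh : h ∈ Cfg W (frd W 0)) {F : Hg → ℝ}
    (hF : ∀ g g' : Hg, (∀ x ∈ nb (Vi T K h), g x = g' x) → F g = F g') :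
    Ex (Cfg W (frd W 0) ∩ {g | ClC T g = ClC T h ∧ ∀ x, x ∉ Dm T K h → g x = h x}) F =
      Ex (Cfg (Vi T K h) (frd (Vi T K h) 0)) fun g => F fun x => g x + L := by
  have hLe : Even L := (by obtain ⟨k, hk⟩ := hL; exact ⟨4 * k, by omega⟩)
  have hne : (Cfg W (frd W 0) ∩ {g | ClC T g = ClC T h ∧ ∀ x, x ∉ Dm T K h → g x = h x}).Nonempty :=
    ⟨h, hh, rfl, fun _ _ => rfl⟩
  rw [fib_eq hTW hL hB hh] at hne ⊢
  have hVf : (Vi T K h).Finite :=
    hW.subset fun x hx => hTW fun h1 => Dm_sub hx.1 (sub_ClC T h h1)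
  rw [← Ex_shift hLe]
  refine Ex_off (Ji_dat hW hTW) (frd_dat hVf L) (fun x hx => ?_) hne (frd_nonempty _ hLe) hF
  unfold Ji frd
  by_cases h1 : x ∈ Vi T K h
  · rw [if_pos h1, if_pos h1]
  · have h2 : x ∈ ebd (Vi T K h) := hx.resolve_left h1
    rw [if_neg h1, if_neg h1, if_pos h2, if_pos]
    obtain ⟨-, y, hy, hyx⟩ := h2
    have h3 : x ∉ ClC T h := fun h4 => hy.2 ⟨hy.1, x, h4, Topo.adj_symm hyx⟩
    have h4 : x ∈ Dm T K h := Dm_step hy.1 hyx h3
    by_contra h5
    exact h1 ⟨h4, h5⟩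

theorem Ex_flp (F : Hg → ℝ) :
    Ex (Cfg W (frd W 0)) F = Ex (Cfg W (frd W 0)) fun h => F (flp W h) := by
  have hbij : BijOn (flp W) (Cfg W (frd W 0)) (Cfg W (frd W 0)) := by
    refine ⟨fun h hh => flp_mem hh, fun a ha b hb hab => ?_, fun h hh =>
      ⟨flp W h, flp_mem hh, flp_flp hh⟩⟩
    rw [← flp_flp ha, hab, flp_flp hb]
  exact Ex_bij _ hbij F

/-- The average has mean zero. -/
theorem Ex_av {s : Finset Pt} (hs : (s : Set Pt) ⊆ W) (f : Pt → ℝ) :
    Ex (Cfg W (frd W 0)) (av s f) = 0 := by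
  have h1 := Ex_flp (W := W) (av s f)
  have h2 : Ex (Cfg W (frd W 0)) (fun h => av s f (flp W h)) =
      -Ex (Cfg W (frd W 0)) (av s f) := by
    rw [← Ex_neg]
    refine Ex_congr fun h _ => ?_
    unfold av
    rw [← Finset.sum_neg_distrib]
    refine Finset.sum_congr rfl fun v hv => ?_
    have e : flp W h v = -h v := if_pos (Or.inl (hs hv))
    rw [e]
    push_cast
    ring
  rw [h2] at h1
  linarith

/-- **The level is zero**, up to the second moment of an average of the heights inside. -/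
theorem lev_le (hW : W.Finite) (hTW : Tᶜ ⊆ W) {s : Finset Pt}
    (hs : ∀ x ∈ s, x ∈ K ∧ ∀ y, Adj x y → y ∈ K) {f : Pt → ℝ} (hf : ∑ v ∈ s, f v = 1) :
    64 * Pr (Cfg W (frd W 0)) (Bp T K fun L => L ≠ 0) ≤
      Ex (Cfg W (frd W 0)) fun h => av s f h ^ 2 := by
  have hS : (Cfg W (frd W 0)).Finite := Cfg_finite (frd_dat hW 0)
  have key : Ex (Cfg W (frd W 0)) (fun h => -(av s f h ^ 2)) ≤
      Ex (Cfg W (frd W 0)) (fun h => -(64 * ind (Bp T K fun L => L ≠ 0) h)) := by
    refine Ex_le_of_fiber hS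
      (fun h => ((ClC T h, fun x => if x ∈ Dm T K h then 0 else h x) : Set Pt × Hg)) _ _ ?_ ?_
    · have hone : ∀ a ∈ Cfg W (frd W 0), ∀ b ∈ Cfg W (frd W 0),
          ((ClC T a, fun x => if x ∈ Dm T K a then 0 else a x) : Set Pt × Hg) =
            (ClC T b, fun x => if x ∈ Dm T K b then 0 else b x) →
          a ∈ Bp T K (fun L => L ≠ 0) → b ∈ Bp T K (fun L => L ≠ 0) := by
        rintro a _ b _ hab ⟨h1, L, h2, h3, h4⟩
        have h5 : ClC T a = ClC T b := congrArg Prod.fst hab
        have h6 : Dm T K a = Dm T K b := by unfold Dm; rw [h5]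
        have h7 := congrArg Prod.snd hab
        refine ⟨fun x hx => by rw [← h5]; exact h1 x hx, L, h2, h3, fun x hx y hy hxy => ?_⟩
        rw [← h5] at hx
        rw [← h6] at hy
        have h8 := congrFun h7 x
        simp only at h8
        rw [if_neg fun h9 => Dm_sub h9 hx, if_neg fun h9 => Dm_sub (h6 ▸ h9) hx] at h8
        rw [← h8]
        exact h4 x hx y hy hxy
      intro a ha b hb hab
      have h1 : a ∈ Bp T K (fun L => L ≠ 0) ↔ b ∈ Bp T K (fun L => L ≠ 0) :=
        ⟨hone a ha b hb hab, hone b hb a ha hab.symm⟩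
      unfold ind
      by_cases h2 : a ∈ Bp T K (fun L => L ≠ 0)
      · rw [if_pos h2, if_pos (h1.1 h2)]
      · rw [if_neg h2, if_neg fun h3 => h2 (h1.2 h3)]
    · intro h hh
      by_cases hB : h ∈ Bp T K (fun L => L ≠ 0)
      · have e1 : ind (Bp T K fun L => L ≠ 0) h = 1 := if_pos hB
        rw [e1]
        obtain ⟨h1, L, h2, h3, h4⟩ := hB
        have e : {b : Hg | ((ClC T b, fun x => if x ∈ Dm T K b then 0 else b x) : Set Pt × Hg) =
            (ClC T h, fun x => if x ∈ Dm T K h then 0 else h x)} =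
            {g | ClC T g = ClC T h ∧ ∀ x, x ∉ Dm T K h → g x = h x} := by
          ext g
          simp only [Set.mem_ofPred_eq, Prod.mk.injEq]
          constructor
          · rintro ⟨h5, h6⟩
            have h7 : Dm T K g = Dm T K h := by unfold Dm; rw [h5]
            refine ⟨h5, fun x hx => ?_⟩
            have h8 := congrFun h6 x
            rw [h7] at h8
            simpa [hx] using h8
          · rintro ⟨h5, h6⟩
            have h7 : Dm T K g = Dm T K h := by unfold Dm; rw [h5]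
            refine ⟨h5, ?_⟩
            funext x
            rw [h7]
            by_cases hx : x ∈ Dm T K h
            · simp [hx]
            · simp [hx, h6 x hx]
        have hsV : (s : Set Pt) ⊆ Vi T K h := by
          intro x hx
          obtain ⟨h5, h6⟩ := hs x hx
          refine ⟨⟨x, h5, Conn.refl (h1 x h5)⟩, ?_⟩
          rintro ⟨-, k, hk, hkx⟩
          exact h1 k (h6 k (Topo.adj_symm hkx)) hk
        have hVf : (Vi T K h).Finite :=
          hW.subset fun x hx => hTW fun h1 => Dm_sub hx.1 (sub_ClC T h h1)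
        rw [e, fib_Ex hW hTW h3 h4 hh fun g g' hgg => by
          have : av s f g = av s f g' := Finset.sum_congr rfl fun v hv => by
            rw [hgg v (Or.inl (hsV hv))]
          rw [this]]
        have e2 : Ex (Cfg (Vi T K h) (frd (Vi T K h) 0))
            (fun g => -(av s f (fun x => g x + L) ^ 2)) ≤
            Ex (Cfg (Vi T K h) (frd (Vi T K h) 0)) (fun g => -(2 * L) * av s f g + -(L : ℝ) ^ 2) := by
          refine Ex_mono fun g _ => ?_
          rw [av_add s f hf]
          nlinarith [sq_nonneg (av s f g)]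
        refine e2.trans ?_
        rw [Ex_add, Ex_const_mul, Ex_av hsV,
          Ex_const (Cfg_finite (frd_dat hVf 0)) (frd_nonempty _ (by decide))]
        obtain ⟨k, hk⟩ := h3
        have hk0 : k ≠ 0 := fun h0 => h2 (by rw [hk, h0, mul_zero])
        have hk1 : (1 : ℝ) ≤ (k : ℝ) ^ 2 := by
          have : 1 ≤ k ^ 2 := by
            rcases lt_or_gt_of_ne hk0 with h5 | h5 <;> nlinarith
          exact_mod_cast this
        have hL : (L : ℝ) = 8 * k := by rw [hk]; push_cast; ring
        rw [hL]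
        nlinarith
      · have e1 : ind (Bp T K fun L => L ≠ 0) h = 0 := if_neg hB
        rw [e1, mul_zero, neg_zero]
        have := Ex_mono (S := Cfg W (frd W 0) ∩
          {b : Hg | ((ClC T b, fun x => if x ∈ Dm T K b then 0 else b x) : Set Pt × Hg) =
            (ClC T h, fun x => if x ∈ Dm T K h then 0 else h x)})
          (F := fun h => -(av s f h ^ 2)) (G := fun _ => 0) fun g _ => by
            have := sq_nonneg (av s f g); linarith
        rwa [Ex_zero] at this
  rw [Ex_neg, Ex_neg, Ex_const_mul, ← Pr_eq_Ex hS] at key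
  linarith

/-- The cluster of the edges which are not closed at level `0` stays inside a circuit of level `0`. -/
theorem clu_sub {p : ℤ → Prop} (hp : h ∈ Bp T K p) (hp0 : ∀ L, p L → L = 0) : CluL 0 K h ⊆ Tᶜ := by
  obtain ⟨h1, L, h2, h3, h4⟩ := hp
  have hL := hp0 L h2
  subst hL
  have key : CluL 0 K h ⊆ Dm T K h := by
    rintro y ⟨x, hx, hxy⟩
    induction hxy with
    | refl => exact ⟨x, hx, Conn.refl (h1 x hx)⟩
    | @tail b c _ hbc ih =>
      by_cases hc : c ∈ ClC T h
      · exfalso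
        obtain ⟨m, hm, h5, h6⟩ := ClC_closed hc (Dm_sub ih) (Topo.adj_symm hbc.1)
        have h7 := h4 c hc b ih (Topo.adj_symm hbc.1)
        have h8 := lev_unique hm (dvd_zero 8) h5 h7
        subst h8
        exact hbc.2 ⟨h6, h5⟩
      · exact Dm_step ih hbc.1 hc
  exact fun y hy h5 => Dm_sub (key hy) (sub_ClC T h h5)

/-- **Escape of the cluster of level `0`**. -/
theorem esc_le (hW : W.Finite) {z : Pt} {r1 r2 : ℤ} (hbW : bx z r2 ⊆ W) {s : Finset Pt}
    (hs : (s : Set Pt) ⊆ bx z (r1 - 1)) {f : Pt → ℝ} (hf : ∑ v ∈ s, f v = 1) :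
    TV.esc W (bx z r2) (bx z r1) ≤
      Pr (Cfg W (frd W 0)) {h | ∃ x ∈ bx z r1, x ∈ ClC (bx z r2)ᶜ h} +
        1 / 64 * Ex (Cfg W (frd W 0)) fun h => av s f h ^ 2 := by
  have hTW : (bx z r2)ᶜᶜ ⊆ W := by rwa [compl_compl]
  have h1 := lev_le hW hTW (K := bx z r1) (s := s) (fun x hx => ?_) hf
  · have h2 : TV.esc W (bx z r2) (bx z r1) ≤
        Pr (Cfg W (frd W 0)) {h | ∃ x ∈ bx z r1, x ∈ ClC (bx z r2)ᶜ h} +
          Pr (Cfg W (frd W 0)) (Bp (bx z r2)ᶜ (bx z r1) fun L => L ≠ 0) := by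
      refine (Pr_mono fun h hh hE => ?_).trans (Pr_union_le _ _ _)
      by_cases h3 : ∃ x ∈ bx z r1, x ∈ ClC (bx z r2)ᶜ h
      · exact Or.inl h3
      · push Not at h3
        right
        obtain ⟨L, hL, h4⟩ := exists_level (PLAN.cn_compl_bx z r2) (PLAN.cn_bx z r1) hTW hh h3
        refine ⟨h3, L, fun h5 => ?_, hL, h4⟩
        obtain ⟨y, hy, hy2⟩ := hE
        have h6 := clu_sub (p := fun L => L = 0) ⟨h3, L, h5, hL, h4⟩ (fun _ h => h) hy
        rw [compl_compl] at h6
        exact hy2 h6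
    linarith
  · have h2 := hs hx
    obtain ⟨h3, h4⟩ := h2
    rw [abs_le] at h3 h4
    refine ⟨⟨abs_le.2 ⟨by omega, by omega⟩, abs_le.2 ⟨by omega, by omega⟩⟩, fun y hxy => ?_⟩
    rw [Topo.adj_iff] at hxy
    refine ⟨abs_le.2 ?_, abs_le.2 ?_⟩ <;> omega

end Vale.Agent.P153.R2.KPOS.Tr
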