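import Vale.Agent.P153.R2.RDEC.Avg
import Vale.Agent.P153.R2.F2.One
import Vale.Agent.P153.R2.PLAN.Cob
import Vale.Agent.P153.R2.PLAN.Box

/-!
# P153-R2, block KPOS (helper398): transfer of increasing events to a bigger domain

Edges of the class `8ℤ`: both heights are at distance one from the same multiple of `8`. `ClC T h` is
the set of the vertices joined to `T` by edges which are not of this class. If it misses the box
`bx z r1`, there is a closed circuit of a level `L ∈ 8ℤ` around it; the law of `L` is symmetric, and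
inside the outermost such circuit the law is the free law shifted by `L`.
-/

namespace Vale.Agent.P153.R2.KPOS.Tr

open Set Relation
open Vale.Agent.P153 Vale.Agent.P153.R2
open Vale.Agent.P153.Topo (Conn)
open scoped Classical

/-- The edge is closed at a level in `8ℤ`. -/
def Ccl (a b : ℤ) : Prop := ∃ m : ℤ, 8 ∣ m ∧ |a - m| = 1 ∧ |b - m| = 1

/-- Step through an edge which is not closed. -/
def OpC (h : Hg) (x y : Pt) : Prop := Adj x y ∧ ¬ Ccl (h x) (h y)

/-- The vertices joined to `T` by such steps. -/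
def ClC (T : Set Pt) (h : Hg) : Set Pt := {y | ∃ x ∈ T, ReflTransGen (OpC h) x y}

theorem Ccl.neg {a b : ℤ} (h : Ccl a b) : Ccl (-a) (-b) := by
  obtain ⟨m, h1, h2, h3⟩ := h
  refine ⟨-m, (dvd_neg).2 h1, ?_, ?_⟩
  · rw [← h2, ← abs_neg]; congr 1; ring
  · rw [← h3, ← abs_neg]; congr 1; ring

theorem Ccl.neg_iff {a b : ℤ} : Ccl (-a) (-b) ↔ Ccl a b :=
  ⟨fun h => by simpa using h.neg, fun h => h.neg⟩

/-- The level is unique. -/
theorem lev_unique {a m m' : ℤ} (hm : 8 ∣ m) (hm' : 8 ∣ m') (h : |a - m| = 1) (h' : |a - m'| = 1) :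
    m = m' := by
  rcases abs_cases (a - m) with ⟨h1, _⟩ | ⟨h1, _⟩ <;>
    rcases abs_cases (a - m') with ⟨h2, _⟩ | ⟨h2, _⟩ <;> omega

theorem lev_unique2 {a b m m' : ℤ} (hm : 8 ∣ m) (hm' : 8 ∣ m') (h : |a - m| = 1) (h' : |b - m'| = 1)
    (hab : |a - b| ≤ 2) : m = m' := by
  rw [abs_le] at hab
  rcases abs_cases (a - m) with ⟨h1, _⟩ | ⟨h1, _⟩ <;>
    rcases abs_cases (b - m') with ⟨h2, _⟩ | ⟨h2, _⟩ <;> omega

variable {T K W : Set Pt} {h g : Hg}

theorem sub_ClC (T : Set Pt) (h : Hg) : T ⊆ ClC T h := fun x hx => ⟨x, hx, ReflTransGen.refl⟩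

theorem ClC_step {x y : Pt} (hx : x ∈ ClC T h) (hxy : OpC h x y) : y ∈ ClC T h := by
  obtain ⟨z, hz, hzx⟩ := hx
  exact ⟨z, hz, hzx.tail hxy⟩

theorem ClC_closed {x y : Pt} (hx : x ∈ ClC T h) (hy : y ∉ ClC T h) (hxy : Adj x y) :
    Ccl (h x) (h y) := by
  by_contra hc
  exact hy (ClC_step hx ⟨hxy, hc⟩)

theorem ClC_conn (hT : Cn T) : Cn (ClC T h) := by
  have key : ∀ y ∈ ClC T h, ∃ t ∈ T, Conn (ClC T h) t y := by
    rintro y ⟨t, ht, hty⟩
    refine ⟨t, ht, ?_⟩
    induction hty with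
    | refl => exact Conn.refl (sub_ClC T h ht)
    | @tail b c _ h1 ih => exact ih.tail h1.1 (ClC_step ih.right_mem h1)
  intro x hx y hy
  obtain ⟨t, ht, h1⟩ := key x hx
  obtain ⟨s, hs, h2⟩ := key y hy
  exact (h1.symm.trans ((hT t ht s hs).mono (sub_ClC T h))).trans h2

/-- The cluster is determined by the heights on it and the class of the edges of its boundary. -/
theorem ClC_eq (hgh : ∀ x ∈ ClC T h, g x = h x)
    (hb : ∀ x ∈ ClC T h, ∀ y, y ∉ ClC T h → Adj x y → Ccl (g x) (g y)) : ClC T g = ClC T h := by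
  apply Set.Subset.antisymm
  · rintro x ⟨z, hz, hzx⟩
    induction hzx with
    | refl => exact sub_ClC T h hz
    | @tail b c _ h1 ih =>
      by_contra hc
      exact h1.2 (hb b ih c hc h1.1)
  · rintro x ⟨z, hz, hzx⟩
    have key : x ∈ ClC T h ∧ x ∈ ClC T g := by
      induction hzx with
      | refl => exact ⟨sub_ClC T h hz, sub_ClC T g hz⟩
      | @tail b c _ h1 ih =>
        have h3 : c ∈ ClC T h := ClC_step ih.1 h1
        refine ⟨h3, ClC_step ih.2 ⟨h1.1, ?_⟩⟩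
        rw [hgh b ih.1, hgh c h3]
        exact h1.2
    exact key.2

/-- Equality of clusters from the edges which touch the complement of `T`. -/
theorem ClC_congr (hgh : ∀ x y, (x ∉ T ∨ y ∉ T) → Adj x y → (Ccl (g x) (g y) ↔ Ccl (h x) (h y))) :
    ClC T g = ClC T h := by
  have key : ∀ g h : Hg, (∀ x y, (x ∉ T ∨ y ∉ T) → Adj x y →
      (Ccl (g x) (g y) ↔ Ccl (h x) (h y))) → ClC T g ⊆ ClC T h := by
    rintro g h hgh x ⟨z, hz, hzx⟩
    induction hzx with
    | refl => exact sub_ClC T h hz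
    | @tail b c _ h1 ih =>
      by_cases h2 : c ∈ T
      · exact sub_ClC T h h2
      · exact ClC_step ih ⟨h1.1, fun h3 => h1.2 ((hgh b c (Or.inr h2) h1.1).2 h3)⟩
  exact Set.Subset.antisymm (key g h hgh) (key h g fun x y h1 h2 => (hgh x y h1 h2).symm)

/-- The component of the box in the complement of the cluster. -/
def Dm (T K : Set Pt) (h : Hg) : Set Pt := Cl (ClC T h)ᶜ K

theorem Dm_sub : Dm T K h ⊆ (ClC T h)ᶜ := by
  rintro y ⟨x, _, hxy⟩
  exact hxy.right_mem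

theorem Dm_step {x y : Pt} (hx : x ∈ Dm T K h) (hxy : Adj x y) (hy : y ∉ ClC T h) :
    y ∈ Dm T K h := by
  obtain ⟨z, hz, hzx⟩ := hx
  exact ⟨z, hz, hzx.tail hxy hy⟩

theorem Dm_conn (hK : Cn K) (hKC : ∀ x ∈ K, x ∉ ClC T h) : Cn (Dm T K h) := by
  have hKD : K ⊆ Dm T K h := fun x hx => ⟨x, hx, Conn.refl (hKC x hx)⟩
  have key : ∀ y ∈ Dm T K h, ∃ t ∈ K, Conn (Dm T K h) t y := by
    rintro y ⟨t, ht, hty⟩
    refine ⟨t, ht, ?_⟩
    refine Conn.ind (S := (ClC T h)ᶜ) (fun z => Conn (Dm T K h) t z) (Conn.refl (hKD ht)) ?_ hty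
    intro u v hu huv hv ih
    exact ih.tail huv (Dm_step ih.right_mem huv hv)
  intro x hx y hy
  obtain ⟨t, ht, h1⟩ := key x hx
  obtain ⟨s, hs, h2⟩ := key y hy
  exact (h1.symm.trans ((hK t ht s hs).mono hKD)).trans h2

/-- The event: the cluster misses `K`, and the level `L` of the boundary satisfies `p L`. -/
def Bp (T K : Set Pt) (p : ℤ → Prop) : Set Hg := {h | (∀ x ∈ K, x ∉ ClC T h) ∧
  ∃ L : ℤ, p L ∧ 8 ∣ L ∧ ∀ x ∈ ClC T h, ∀ y ∈ Dm T K h, Adj x y → |h x - L| = 1}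

/-- The boundary has one level. -/
theorem exists_level {I : Pt → Set ℤ} (hT : Cn T) (hK : Cn K) (hTW : Tᶜ ⊆ W) (hh : h ∈ Cfg W I)
    (hKC : ∀ x ∈ K, x ∉ ClC T h) :
    ∃ L : ℤ, 8 ∣ L ∧ ∀ x ∈ ClC T h, ∀ y ∈ Dm T K h, Adj x y → |h x - L| = 1 := by
  by_cases hne : ∃ x ∈ ClC T h, ∃ y ∈ Dm T K h, Adj x y
  · obtain ⟨x0, hx0, y0, hy0, h0⟩ := hne
    obtain ⟨L, hL, h1, h2⟩ := ClC_closed hx0 (Dm_sub hy0) h0
    refine ⟨L, hL, fun x hx y hy hxy => ?_⟩
    have hcon := PLAN.outer_connected (K := ClC T h) (W := Dm T K h)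
      (Set.disjoint_left.2 fun z h3 h4 => Dm_sub h4 h3) (ClC_conn hT) (Dm_conn hK hKC)
      (fun u hu v huv hv => Dm_step hu huv hv) (v := y0) (w := y) ⟨hy0, x0, hx0, h0⟩
      ⟨hy, x, hx, hxy⟩
    have key : |h y - L| = 1 := by
      refine Conn.ind (S := PLAN.outer (ClC T h) (Dm T K h)) (fun z => |h z - L| = 1) h2 ?_ hcon
      intro u v hu huv hv ih
      obtain ⟨h3, k, hk, hkv⟩ := hv
      obtain ⟨m, hm, h4, h5⟩ := ClC_closed hk (Dm_sub h3) hkv
      have huW : u ∈ W := hTW fun h6 => Dm_sub hu.right_mem.1 (sub_ClC T h h6)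
      rw [lev_unique2 hL hm ih h5 (hh.2.2 u huW v huv)]
      exact h5
    obtain ⟨m, hm, h4, h5⟩ := ClC_closed hx (Dm_sub hy) hxy
    rw [lev_unique hL hm key h5]
    exact h4
  · push Not at hne
    exact ⟨0, dvd_zero _, fun x hx y hy hxy => absurd hxy (hne x hx y hy)⟩

/-- The vertices of the component next to the cluster. -/
def Ou (T K : Set Pt) (h : Hg) : Set Pt := PLAN.outer (ClC T h) (Dm T K h)

/-- The domain inside the outermost circuit. -/
def Vi (T K : Set Pt) (h : Hg) : Set Pt := Dm T K h \ Ou T K h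

/-- The data on the fibre. -/
noncomputable def Ji (T K : Set Pt) (L : ℤ) (h : Hg) : Pt → Set ℤ := fun x =>
  if x ∈ Vi T K h then univ else if x ∈ Ou T K h then {L - 1, L + 1} else {h x}

theorem mem_pm {a L : ℤ} : a ∈ ({L - 1, L + 1} : Set ℤ) ↔ |a - L| = 1 := by
  simp only [Set.mem_insert_iff, Set.mem_singleton_iff]
  rcases abs_cases (a - L) with ⟨h1, _⟩ | ⟨h1, _⟩ <;> omega

/-- The fibre. -/
theorem fib_eq {L : ℤ} (hTW : Tᶜ ⊆ W) (hL : 8 ∣ L)
    (hB : ∀ x ∈ ClC T h, ∀ y ∈ Dm T K h, Adj x y → |h x - L| = 1)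
    (hh : h ∈ Cfg W (frd W 0)) :
    Cfg W (frd W 0) ∩ {g | ClC T g = ClC T h ∧ ∀ x, x ∉ Dm T K h → g x = h x} =
      Cfg (Vi T K h) (Ji T K L h) := by
  have hDW : Dm T K h ⊆ W := fun x hx => hTW fun h1 => Dm_sub hx (sub_ClC T h h1)
  have hOD : Ou T K h ⊆ Dm T K h := fun x hx => hx.1
  ext g
  constructor
  · rintro ⟨hg, hgC, hgh⟩
    refine ⟨hg.1, fun x => ?_, fun x hx y hxy => hg.2.2 x (hDW hx.1) y hxy⟩
    unfold Ji
    by_cases h1 : x ∈ Vi T K h
    · rw [if_pos h1]; exact Set.mem_univ _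
    · rw [if_neg h1]
      by_cases h2 : x ∈ Ou T K h
      · rw [if_pos h2, mem_pm]
        obtain ⟨h3, k, hk, hkx⟩ := h2
        have h4 := hB k hk x h3 hkx
        have hkD : k ∉ Dm T K h := fun h5 => Dm_sub h5 hk
        have h5 : Ccl (g k) (g x) := ClC_closed (T := T) (by rw [hgC]; exact hk)
          (by rw [hgC]; exact Dm_sub h3) hkx
        obtain ⟨m, hm, h6, h7⟩ := h5
        rw [hgh k hkD] at h6
        rw [lev_unique hL hm h4 h6]
        exact h7
      · rw [if_neg h2]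
        exact hgh x fun h3 => h1 ⟨h3, h2⟩
  · intro hg
    have hgh : ∀ x, x ∉ Dm T K h → g x = h x := fun x hx => by
      have := hg.2.1 x
      unfold Ji at this
      rw [if_neg fun h1 => hx h1.1, if_neg fun h1 => hx (hOD h1)] at this
      exact this
    have hgo : ∀ x ∈ Ou T K h, |g x - L| = 1 := fun x hx => by
      have := hg.2.1 x
      unfold Ji at this
      rw [if_neg fun h1 => h1.2 hx, if_pos hx, mem_pm] at this
      exact this
    have hgC : ∀ x ∈ ClC T h, g x = h x := fun x hx => hgh x fun h1 => Dm_sub h1 hx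
    have hbd : ∀ x ∈ ClC T h, ∀ y, y ∉ ClC T h → Adj x y → Ccl (g x) (g y) := by
      intro x hx y hy hxy
      by_cases h1 : y ∈ Dm T K h
      · refine ⟨L, hL, ?_, hgo y ⟨h1, x, hx, hxy⟩⟩
        rw [hgC x hx]
        exact hB x hx y h1 hxy
      · rw [hgC x hx, hgh y h1]
        exact ClC_closed hx hy hxy
    refine ⟨⟨hg.1, fun x => ?_, fun x hx y hxy => ?_⟩, ClC_eq hgC hbd, hgh⟩
    · by_cases h1 : x ∈ Dm T K h
      · rw [RD.frd_in (hDW h1)]; exact Set.mem_univ _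
      · rw [hgh x h1]; exact hh.2.1 x
    · have hlev : ∀ u v, u ∈ Ou T K h → Adj u v → v ∉ Vi T K h → |g u - g v| ≤ 2 := by
        intro u v hu huv hv
        have h1 := hgo u hu
        have h2 : |g v - L| = 1 := by
          by_cases h3 : v ∈ Dm T K h
          · exact hgo v (by by_contra h4; exact hv ⟨h3, h4⟩)
          · rw [hgh v h3]
            have h4 : v ∈ ClC T h := by
              by_contra h5
              exact h3 (Dm_step (hOD hu) huv h5)
            exact hB v h4 u (hOD hu) (Topo.adj_symm huv)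
        rw [abs_le]
        rcases abs_cases (g u - L) with ⟨h5, _⟩ | ⟨h5, _⟩ <;>
          rcases abs_cases (g v - L) with ⟨h6, _⟩ | ⟨h6, _⟩ <;> omega
      by_cases h1 : x ∈ Vi T K h
      · exact hg.2.2 x h1 y hxy
      · by_cases h2 : y ∈ Vi T K h
        · rw [abs_sub_comm]
          exact hg.2.2 y h2 x (Topo.adj_symm hxy)
        · by_cases h3 : x ∈ Ou T K h
          · exact hlev x y h3 hxy h2
          · by_cases h4 : y ∈ Ou T K h
            · rw [abs_sub_comm]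
              exact hlev y x h4 (Topo.adj_symm hxy) h1
            · have h5 : x ∉ Dm T K h := fun h => h1 ⟨h, h3⟩
              have h6 : y ∉ Dm T K h := fun h => h2 ⟨h, h4⟩
              rw [hgh x h5, hgh y h6]
              exact hh.2.2 x hx y hxy

/-- Finiteness of the data. -/
theorem Ji_dat {L : ℤ} (hW : W.Finite) (hTW : Tᶜ ⊆ W) :
    Dat (Vi T K h) (Ji T K L h) := by
  have hDW : Dm T K h ⊆ W := fun x hx => hTW fun h1 => Dm_sub hx (sub_ClC T h h1)
  refine ⟨hW.subset fun x hx => hDW hx.1, fun x hx => ?_, hW.subset fun x hx => ?_⟩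
  · unfold Ji
    rw [if_neg hx]
    split_ifs
    · exact Set.toFinite _
    · exact Set.finite_singleton _
  · by_contra hc
    apply hx
    unfold Ji
    rw [if_neg fun h1 => hc (hDW h1.1), if_neg fun h1 => hc (hDW h1.1)]
    exact Set.subsingleton_singleton

theorem frd_dat (hV : W.Finite) (m : ℤ) : Dat W (frd W m) := by
  refine ⟨hV, fun x hx => ?_, (nb_finite hV).subset fun x hx => ?_⟩
  · unfold frd
    rw [if_neg hx]
    split_ifs
    · exact Set.toFinite _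
    · exact Set.finite_singleton _
  · by_contra hxn
    apply hx
    unfold frd
    rw [if_neg (fun h => hxn (Or.inl h)), if_neg (fun h => hxn (Or.inr h))]
    exact Set.subsingleton_singleton

theorem frd_nonempty (V : Set Pt) {m : ℤ} (hm : Even m) : (Cfg V (frd V m)).Nonempty := by
  refine ⟨fun _ => m + 1, fun _ => hm.add_odd odd_one, fun x => ?_, fun x _ y _ => by simp⟩
  unfold frd
  split_ifs <;> simp

/-- The law inside. -/
theorem fib_Pr {L : ℤ} (hW : W.Finite) (hTW : Tᶜ ⊆ W) (hL : 8 ∣ L)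
    (hB : ∀ x ∈ ClC T h, ∀ y ∈ Dm T K h, Adj x y → |h x - L| = 1)
    (hh : h ∈ Cfg W (frd W 0)) {A : Set Hg}
    (hA : ∀ g g' : Hg, (∀ x ∈ nb (Vi T K h), g x = g' x) → (g ∈ A ↔ g' ∈ A)) :
    Pr (Cfg W (frd W 0) ∩ {g | ClC T g = ClC T h ∧ ∀ x, x ∉ Dm T K h → g x = h x}) A =
      Pr (Cfg (Vi T K h) (frd (Vi T K h) 0)) {g | (fun x => g x + L) ∈ A} := by
  have hLe : Even L := (by obtain ⟨k, hk⟩ := hL; exact ⟨4 * k, by omega⟩)
  have hne : (Cfg W (frd W 0) ∩ {g | ClC T g = ClC T h ∧ ∀ x, x ∉ Dm T K h → g x = h x}).Nonempty :=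
    ⟨h, hh, rfl, fun _ _ => rfl⟩
  rw [fib_eq hTW hL hB hh] at hne ⊢
  have hVf : (Vi T K h).Finite :=
    hW.subset fun x hx => hTW fun h1 => Dm_sub hx.1 (sub_ClC T h h1)
  rw [← F2.Pr_shift hVf hLe, Pr_eq_Ex (Cfg_finite (Ji_dat hW hTW)),
    Pr_eq_Ex (Cfg_finite (frd_dat hVf L))]
  refine Ex_off (Ji_dat hW hTW) (frd_dat hVf L) (fun x hx => ?_) hne (frd_nonempty _ hLe) ?_
  · unfold Ji frd
    by_cases h1 : x ∈ Vi T K h
    · rw [if_pos h1, if_pos h1]
    · have h2 : x ∈ ebd (Vi T K h) := hx.resolve_left h1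
      rw [if_neg h1, if_neg h1, if_pos h2, if_pos]
      obtain ⟨-, y, hy, hyx⟩ := h2
      have h3 : x ∉ ClC T h := fun h4 => hy.2 ⟨hy.1, x, h4, Topo.adj_symm hyx⟩
      have h4 : x ∈ Dm T K h := Dm_step hy.1 hyx h3
      by_contra h5
      exact h1 ⟨h4, h5⟩
  · intro a b hab
    have := hA a b hab
    unfold ind
    by_cases h1 : a ∈ A
    · rw [if_pos h1, if_pos (this.1 h1)]
    · rw [if_neg h1, if_neg fun h2 => h1 (this.2 h2)]

/-- Transfer from the inner domains. -/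
theorem transfer_pos (hW : W.Finite) (hTW : Tᶜ ⊆ W) {A : Set Hg} (hA : IsUpperSet A)
    {K' : Set Pt} (hK' : ∀ x ∈ K', x ∈ K ∧ ∀ y, Adj x y → y ∈ K)
    (hloc : ∀ g g' : Hg, (∀ x ∈ K', g x = g' x) → (g ∈ A ↔ g' ∈ A)) {q : ℝ}
    (hq : ∀ V : Set Pt, K' ⊆ V → V ⊆ Tᶜ → q ≤ Pr (Cfg V (frd V 0)) A) :
    q * Pr (Cfg W (frd W 0)) (Bp T K fun L => 0 ≤ L) ≤ Pr (Cfg W (frd W 0)) A := by
  have hS : (Cfg W (frd W 0)).Finite := Cfg_finite (frd_dat hW 0)
  have key : q * Pr (Cfg W (frd W 0)) (Bp T K fun L => 0 ≤ L) ≤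
      Pr (Cfg W (frd W 0)) ((Bp T K fun L => 0 ≤ L) ∩ A) := by
    refine Pr_ge_of_fiber hS
      (fun h => ((ClC T h, fun x => if x ∈ Dm T K h then 0 else h x) : Set Pt × Hg)) _ _ ?_ ?_
    · have hone : ∀ a ∈ Cfg W (frd W 0), ∀ b ∈ Cfg W (frd W 0),
          ((ClC T a, fun x => if x ∈ Dm T K a then 0 else a x) : Set Pt × Hg) =
            (ClC T b, fun x => if x ∈ Dm T K b then 0 else b x) →
          a ∈ Bp T K (fun L => 0 ≤ L) → b ∈ Bp T K (fun L => 0 ≤ L) := by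
        rintro a _ b _ hab ⟨h1, L, h2, h3, h4⟩
        have h5 : ClC T a = ClC T b := congrArg Prod.fst hab
        have h6 : Dm T K a = Dm T K b := by unfold Dm; rw [h5]
        have h7 := congrArg Prod.snd hab
        refine ⟨fun x hx => by rw [← h5]; exact h1 x hx, L, h2, h3, fun x hx y hy hxy => ?_⟩
        rw [← h5] at hx
        rw [← h6] at hy
        have h8 := congrFun h7 x
        simp only at h8
        rw [if_neg fun h9 => Dm_sub h9 hx, if_neg fun h9 => Dm_sub (h6 ▸ h9) hx] at h8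
        rw [← h8]
        exact h4 x hx y hy hxy
      exact fun a ha b hb hab => ⟨hone a ha b hb hab, hone b hb a ha hab.symm⟩
    · rintro h hh ⟨h1, L, h2, h3, h4⟩
      have e : {b : Hg | ((ClC T b, fun x => if x ∈ Dm T K b then 0 else b x) : Set Pt × Hg) =
          (ClC T h, fun x => if x ∈ Dm T K h then 0 else h x)} =
          {g | ClC T g = ClC T h ∧ ∀ x, x ∉ Dm T K h → g x = h x} := by
        ext g
        simp only [Set.mem_ofPred_eq, Prod.mk.injEq]
        constructor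
        · rintro ⟨h5, h6⟩
          have h7 : Dm T K g = Dm T K h := by unfold Dm; rw [h5]
          refine ⟨h5, fun x hx => ?_⟩
          have h8 := congrFun h6 x
          rw [h7] at h8
          simpa [hx] using h8
        · rintro ⟨h5, h6⟩
          have h7 : Dm T K g = Dm T K h := by unfold Dm; rw [h5]
          refine ⟨h5, ?_⟩
          funext x
          rw [h7]
          by_cases hx : x ∈ Dm T K h
          · simp [hx]
          · simp [hx, h6 x hx]
      have hKV : K' ⊆ Vi T K h := by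
        intro x hx
        obtain ⟨h5, h6⟩ := hK' x hx
        refine ⟨⟨x, h5, Conn.refl (h1 x h5)⟩, ?_⟩
        rintro ⟨-, k, hk, hkx⟩
        exact h1 k (h6 k (Topo.adj_symm hkx)) hk
      rw [e, fib_Pr hW hTW h3 h4 hh fun g g' hgg => hloc g g' fun x hx => hgg x (Or.inl (hKV hx))]
      refine (hq (Vi T K h) hKV fun x hx h5 => Dm_sub hx.1 (sub_ClC T h h5)).trans
        (Pr_mono fun g _ hg => hA (fun x => ?_) hg)
      show g x ≤ g x + L
      linarith
  exact key.trans (Pr_mono fun g _ hg => hg.2)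

/-! ### Symmetry of the level -/

/-- Flip of all the heights on `nb W`. -/
noncomputable def flp (W : Set Pt) (h : Hg) : Hg := fun x => if x ∈ nb W then -h x else 1

theorem flp_flp (hh : h ∈ Cfg W (frd W 0)) : flp W (flp W h) = h := by
  funext x
  unfold flp
  by_cases h1 : x ∈ nb W
  · simp [h1]
  · simp only [h1, if_false]
    have := hh.2.1 x
    rw [RD.frd_far (fun h => h1 (Or.inl h)) (fun h => h1 (Or.inr h))] at this
    exact this.symm

theorem flp_mem (hh : h ∈ Cfg W (frd W 0)) : flp W h ∈ Cfg W (frd W 0) := by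
  refine ⟨fun x => ?_, fun x => ?_, fun x hx y hxy => ?_⟩
  · unfold flp
    split_ifs
    · exact (hh.1 x).neg
    · exact odd_one
  · by_cases h1 : x ∈ W
    · rw [RD.frd_in h1]; exact Set.mem_univ _
    · have h0 := hh.2.1 x
      by_cases h2 : x ∈ ebd W
      · rw [RD.frd_bd h2] at h0 ⊢
        have e : flp W h x = -h x := if_pos (Or.inr h2)
        rw [e]
        simp only [Set.mem_insert_iff, Set.mem_singleton_iff] at h0 ⊢
        omega
      · rw [RD.frd_far h1 h2]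
        have e : flp W h x = 1 := if_neg fun h3 => h3.elim h1 h2
        rw [e]
        exact Set.mem_singleton _
  · have h1 : x ∈ nb W := Or.inl hx
    have h2 : y ∈ nb W := by
      by_cases h3 : y ∈ W
      · exact Or.inl h3
      · exact Or.inr ⟨h3, x, hx, hxy⟩
    unfold flp
    rw [if_pos h1, if_pos h2]
    have := hh.2.2 x hx y hxy
    rw [← abs_neg]
    convert this using 2
    ring

theorem flp_ClC (hTW : Tᶜ ⊆ W) (h : Hg) : ClC T (flp W h) = ClC T h := by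
  refine ClC_congr fun x y hxy hadj => ?_
  have h1 : x ∈ nb W ∧ y ∈ nb W := by
    have key : ∀ x y : Pt, x ∉ T → Adj x y → x ∈ nb W ∧ y ∈ nb W := by
      intro x y hx hxy
      have h2 : x ∈ W := hTW hx
      refine ⟨Or.inl h2, ?_⟩
      by_cases h3 : y ∈ W
      · exact Or.inl h3
      · exact Or.inr ⟨h3, x, h2, hxy⟩
    rcases hxy with h2 | h2
    · exact key x y h2 hadj
    · exact (key y x h2 (Topo.adj_symm hadj)).symm
  unfold flp
  rw [if_pos h1.1, if_pos h1.2]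
  exact Ccl.neg_iff

theorem flp_Bp (hTW : Tᶜ ⊆ W) {p : ℤ → Prop} (h : Hg) (hh : h ∈ Bp T K p) :
    flp W h ∈ Bp T K fun L => p (-L) := by
  obtain ⟨h1, L, h2, h3, h4⟩ := hh
  have e := flp_ClC hTW h
  have e2 : Dm T K (flp W h) = Dm T K h := by unfold Dm; rw [e]
  refine ⟨fun x hx => by rw [e]; exact h1 x hx, -L, by simpa using h2, (dvd_neg).2 h3,
    fun x hx y hy hxy => ?_⟩
  rw [e] at hx
  rw [e2] at hy
  have h5 : y ∈ W := hTW fun h6 => Dm_sub hy (sub_ClC T h h6)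
  have h6 : x ∈ nb W := by
    by_cases h7 : x ∈ W
    · exact Or.inl h7
    · exact Or.inr ⟨h7, y, h5, Topo.adj_symm hxy⟩
  unfold flp
  rw [if_pos h6]
  have := h4 x hx y hy hxy
  rw [← abs_neg, ← this]
  congr 1
  ring

theorem Pr_flp (hW : W.Finite) (A : Set Hg) :
    Pr (Cfg W (frd W 0)) A = Pr (Cfg W (frd W 0)) {h | flp W h ∈ A} := by
  have hbij : BijOn (flp W) (Cfg W (frd W 0)) (Cfg W (frd W 0)) := by
    refine ⟨fun h hh => flp_mem hh, fun a ha b hb hab => ?_, fun h hh =>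
      ⟨flp W h, flp_mem hh, flp_flp hh⟩⟩
    rw [← flp_flp ha, hab, flp_flp hb]
  rw [Pr_eq_Ex (Cfg_finite (frd_dat hW 0)), Ex_bij _ hbij, Pr_eq_Ex (Cfg_finite (frd_dat hW 0))]
  refine Ex_congr fun h _ => ?_
  unfold ind
  simp only [Set.mem_ofPred_eq]

/-- Half of the probability of a closed circuit of the class. -/
theorem half_le (hW : W.Finite) (hTW : Tᶜ ⊆ W) (hT : Cn T) (hK : Cn K) :
    1 / 2 * Pr (Cfg W (frd W 0)) {h | ∀ x ∈ K, x ∉ ClC T h} ≤
      Pr (Cfg W (frd W 0)) (Bp T K fun L => 0 ≤ L) := by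
  have h1 : Pr (Cfg W (frd W 0)) {h | ∀ x ∈ K, x ∉ ClC T h} ≤
      Pr (Cfg W (frd W 0)) (Bp T K fun L => 0 ≤ L) +
        Pr (Cfg W (frd W 0)) (Bp T K fun L => L ≤ 0) := by
    refine (Pr_mono fun h hh hE => ?_).trans (Pr_union_le _ _ _)
    obtain ⟨L, hL, h2⟩ := exists_level hT hK hTW hh hE
    rcases le_total 0 L with h3 | h3
    · exact Or.inl ⟨hE, L, h3, hL, h2⟩
    · exact Or.inr ⟨hE, L, h3, hL, h2⟩
  have h2 : Pr (Cfg W (frd W 0)) (Bp T K fun L => L ≤ 0) ≤
      Pr (Cfg W (frd W 0)) (Bp T K fun L => 0 ≤ L) := by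
    rw [Pr_flp hW (Bp T K fun L => 0 ≤ L)]
    refine Pr_mono fun h _ hE => ?_
    obtain ⟨h3, L, h4, h5, h6⟩ := flp_Bp hTW h hE
    exact ⟨h3, L, by linarith, h5, h6⟩
  linarith

/-- **Transfer**: an increasing event which has probability at least `q` in all the free domains
between `bx z (r1 - 1)` and `bx z r2` has probability at least `q / 2` times the probability of a
closed circuit of the class `8ℤ` between the two boxes, in every bigger free domain. -/
theorem transfer (hW : W.Finite) {z : Pt} {r1 r2 : ℤ} (hbW : bx z r2 ⊆ W) {A : Set Hg}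
    (hA : IsUpperSet A)
    (hloc : ∀ g g' : Hg, (∀ x ∈ bx z (r1 - 1), g x = g' x) → (g ∈ A ↔ g' ∈ A)) {q : ℝ} (hq0 : 0 ≤ q)
    (hq : ∀ V : Set Pt, bx z (r1 - 1) ⊆ V → V ⊆ bx z r2 → q ≤ Pr (Cfg V (frd V 0)) A) :
    q * (1 / 2 * Pr (Cfg W (frd W 0)) {h | ∀ x ∈ bx z r1, x ∉ ClC (bx z r2)ᶜ h}) ≤
      Pr (Cfg W (frd W 0)) A := by
  have hTW : (bx z r2)ᶜᶜ ⊆ W := by rwa [compl_compl]
  refine (mul_le_mul_of_nonneg_left
    (half_le hW hTW (PLAN.cn_compl_bx z r2) (PLAN.cn_bx z r1)) hq0).trans ?_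
  refine transfer_pos hW hTW hA (K' := bx z (r1 - 1)) (fun x hx => ?_) hloc fun V h1 h2 =>
    hq V h1 (by rwa [compl_compl] at h2)
  obtain ⟨h1, h2⟩ := hx
  rw [abs_le] at h1 h2
  refine ⟨⟨abs_le.2 ⟨by omega, by omega⟩, abs_le.2 ⟨by omega, by omega⟩⟩, fun y hxy => ?_⟩
  rw [Topo.adj_iff] at hxy
  refine ⟨abs_le.2 ?_, abs_le.2 ?_⟩ <;> omega

end Vale.Agent.P153.R2.KPOS.Tr
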